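import Vale.Agent.Lib.Helper7.P302.I65.Data

namespace Vale.Agent.Lib.Helper7.P302.I65

theorem c_t0 : t0.all chk = true := by decide +kernel
theorem c_t1 : t1.all chk = true := by decide +kernel
theorem c_t3 : t3.all chk = true := by decide +kernel
theorem c_t4 : t4.all chk = true := by decide +kernel
theorem c_t7 : t7.all chk = true := by decide +kernel
theorem c_t8 : t8.all chk = true := by decide +kernel
theorem c_t10 : t10.all chk = true := by decide +kernel
theorem c_t11 : t11.all chk = true := by decide +kernel
theorem c_t15 : t15.all chk = true := by decide +kernel
theorem c_t16 : t16.all chk = true := by decide +kernel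
theorem c_t18 : t18.all chk = true := by decide +kernel
theorem c_t19 : t19.all chk = true := by decide +kernel
theorem c_t22 : t22.all chk = true := by decide +kernel
theorem c_t23 : t23.all chk = true := by decide +kernel
theorem c_t25 : t25.all chk = true := by decide +kernel
theorem c_t26 : t26.all chk = true := by decide +kernel
theorem c_t31 : t31.all chk = true := by decide +kernel
theorem c_t32 : t32.all chk = true := by decide +kernel
theorem c_t34 : t34.all chk = true := by decide +kernel
theorem c_t35 : t35.all chk = true := by decide +kernel
theorem c_t38 : t38.all chk = true := by decide +kernel
theorem c_t39 : t39.all chk = true := by decide +kernel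
theorem c_t41 : t41.all chk = true := by decide +kernel
theorem c_t42 : t42.all chk = true := by decide +kernel
theorem c_t46 : t46.all chk = true := by decide +kernel
theorem c_t47 : t47.all chk = true := by decide +kernel
theorem c_t49 : t49.all chk = true := by decide +kernel
theorem c_t50 : t50.all chk = true := by decide +kernel
theorem c_t53 : t53.all chk = true := by decide +kernel
theorem c_t54 : t54.all chk = true := by decide +kernel
theorem c_t56 : t56.all chk = true := by decide +kernel
theorem c_t57 : t57.all chk = true := by decide +kernel

end Vale.Agent.Lib.Helper7.P302.I65
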