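import Vale.Agent.Lib.Helper7.P302.I65.Data

namespace Vale.Agent.Lib.Helper7.P302.I65

theorem c_t63 : t63.all chk = true := by decide +kernel
theorem c_t64 : t64.all chk = true := by decide +kernel
theorem c_t66 : t66.all chk = true := by decide +kernel
theorem c_t67 : t67.all chk = true := by decide +kernel
theorem c_t70 : t70.all chk = true := by decide +kernel
theorem c_t71 : t71.all chk = true := by decide +kernel
theorem c_t73 : t73.all chk = true := by decide +kernel
theorem c_t74 : t74.all chk = true := by decide +kernel
theorem c_t78 : t78.all chk = true := by decide +kernel
theorem c_t79 : t79.all chk = true := by decide +kernel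
theorem c_t81 : t81.all chk = true := by decide +kernel
theorem c_t82 : t82.all chk = true := by decide +kernel
theorem c_t85 : t85.all chk = true := by decide +kernel
theorem c_t86 : t86.all chk = true := by decide +kernel
theorem c_t88 : t88.all chk = true := by decide +kernel
theorem c_t89 : t89.all chk = true := by decide +kernel
theorem c_t94 : t94.all chk = true := by decide +kernel
theorem c_t95 : t95.all chk = true := by decide +kernel
theorem c_t97 : t97.all chk = true := by decide +kernel
theorem c_t98 : t98.all chk = true := by decide +kernel
theorem c_t101 : t101.all chk = true := by decide +kernel
theorem c_t102 : t102.all chk = true := by decide +kernel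
theorem c_t104 : t104.all chk = true := by decide +kernel
theorem c_t105 : t105.all chk = true := by decide +kernel
theorem c_t109 : t109.all chk = true := by decide +kernel
theorem c_t110 : t110.all chk = true := by decide +kernel
theorem c_t112 : t112.all chk = true := by decide +kernel
theorem c_t113 : t113.all chk = true := by decide +kernel
theorem c_t116 : t116.all chk = true := by decide +kernel
theorem c_t117 : t117.all chk = true := by decide +kernel
theorem c_t119 : t119.all chk = true := by decide +kernel
theorem c_t120 : t120.all chk = true := by decide +kernel

end Vale.Agent.Lib.Helper7.P302.I65
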