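import Vale.Agent.Lib.Helper7.P302.I65.Data

namespace Vale.Agent.Lib.Helper7.P302.I65

theorem c_t127 : t127.all chk = true := by decide +kernel
theorem c_t128 : t128.all chk = true := by decide +kernel
theorem c_t130 : t130.all chk = true := by decide +kernel
theorem c_t131 : t131.all chk = true := by decide +kernel
theorem c_t134 : t134.all chk = true := by decide +kernel
theorem c_t135 : t135.all chk = true := by decide +kernel
theorem c_t137 : t137.all chk = true := by decide +kernel
theorem c_t138 : t138.all chk = true := by decide +kernel
theorem c_t142 : t142.all chk = true := by decide +kernel
theorem c_t143 : t143.all chk = true := by decide +kernel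
theorem c_t145 : t145.all chk = true := by decide +kernel
theorem c_t146 : t146.all chk = true := by decide +kernel
theorem c_t149 : t149.all chk = true := by decide +kernel
theorem c_t150 : t150.all chk = true := by decide +kernel
theorem c_t152 : t152.all chk = true := by decide +kernel
theorem c_t153 : t153.all chk = true := by decide +kernel
theorem c_t158 : t158.all chk = true := by decide +kernel
theorem c_t159 : t159.all chk = true := by decide +kernel
theorem c_t161 : t161.all chk = true := by decide +kernel
theorem c_t162 : t162.all chk = true := by decide +kernel
theorem c_t165 : t165.all chk = true := by decide +kernel
theorem c_t166 : t166.all chk = true := by decide +kernel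
theorem c_t168 : t168.all chk = true := by decide +kernel
theorem c_t169 : t169.all chk = true := by decide +kernel
theorem c_t173 : t173.all chk = true := by decide +kernel
theorem c_t174 : t174.all chk = true := by decide +kernel
theorem c_t176 : t176.all chk = true := by decide +kernel
theorem c_t177 : t177.all chk = true := by decide +kernel
theorem c_t180 : t180.all chk = true := by decide +kernel
theorem c_t181 : t181.all chk = true := by decide +kernel
theorem c_t183 : t183.all chk = true := by decide +kernel
theorem c_t184 : t184.all chk = true := by decide +kernel

end Vale.Agent.Lib.Helper7.P302.I65
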