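import Vale.Agent.Lib.Helper7.P302.I65.Data

namespace Vale.Agent.Lib.Helper7.P302.I65

theorem c_t190 : t190.all chk = true := by decide +kernel
theorem c_t191 : t191.all chk = true := by decide +kernel
theorem c_t193 : t193.all chk = true := by decide +kernel
theorem c_t194 : t194.all chk = true := by decide +kernel
theorem c_t197 : t197.all chk = true := by decide +kernel
theorem c_t198 : t198.all chk = true := by decide +kernel
theorem c_t200 : t200.all chk = true := by decide +kernel
theorem c_t201 : t201.all chk = true := by decide +kernel
theorem c_t205 : t205.all chk = true := by decide +kernel
theorem c_t206 : t206.all chk = true := by decide +kernel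
theorem c_t208 : t208.all chk = true := by decide +kernel
theorem c_t209 : t209.all chk = true := by decide +kernel
theorem c_t212 : t212.all chk = true := by decide +kernel
theorem c_t213 : t213.all chk = true := by decide +kernel
theorem c_t215 : t215.all chk = true := by decide +kernel
theorem c_t216 : t216.all chk = true := by decide +kernel
theorem c_t221 : t221.all chk = true := by decide +kernel
theorem c_t222 : t222.all chk = true := by decide +kernel
theorem c_t224 : t224.all chk = true := by decide +kernel
theorem c_t225 : t225.all chk = true := by decide +kernel
theorem c_t228 : t228.all chk = true := by decide +kernel
theorem c_t229 : t229.all chk = true := by decide +kernel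
theorem c_t231 : t231.all chk = true := by decide +kernel
theorem c_t232 : t232.all chk = true := by decide +kernel
theorem c_t236 : t236.all chk = true := by decide +kernel
theorem c_t237 : t237.all chk = true := by decide +kernel
theorem c_t239 : t239.all chk = true := by decide +kernel
theorem c_t240 : t240.all chk = true := by decide +kernel
theorem c_t243 : t243.all chk = true := by decide +kernel
theorem c_t244 : t244.all chk = true := by decide +kernel
theorem c_t246 : t246.all chk = true := by decide +kernel
theorem c_t247 : t247.all chk = true := by decide +kernel

end Vale.Agent.Lib.Helper7.P302.I65
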