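import Vale.Agent.Lib.Helper7.P302.I65.C0
import Vale.Agent.Lib.Helper7.P302.I65.C1
import Vale.Agent.Lib.Helper7.P302.I65.C2
import Vale.Agent.Lib.Helper7.P302.I65.C3

/-!
The 63 lightest items cannot be split into triples of total weight at most the
capacity.  All `decide` steps are evaluated by the kernel.
-/

namespace Vale.Agent.Lib.Helper7.P302.I65

theorem c_t2 : t2.all chk = true :=
  Tr.all_node_intro chk t0 t1 4827652096 (by decide +kernel) c_t0 c_t1
theorem c_t5 : t5.all chk = true :=
  Tr.all_node_intro chk t3 t4 13418496000 (by decide +kernel) c_t3 c_t4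
theorem c_t6 : t6.all chk = true :=
  Tr.all_node_intro chk t2 t5 7646232576 (by decide +kernel) c_t2 c_t5
theorem c_t9 : t9.all chk = true :=
  Tr.all_node_intro chk t7 t8 16169046016 (by decide +kernel) c_t7 c_t8
theorem c_t12 : t12.all chk = true :=
  Tr.all_node_intro chk t10 t11 31269330944 (by decide +kernel) c_t10 c_t11
theorem c_t13 : t13.all chk = true :=
  Tr.all_node_intro chk t9 t12 16370442240 (by decide +kernel) c_t9 c_t12
theorem c_t14 : t14.all chk = true :=
  Tr.all_node_intro chk t6 t13 15096872960 (by decide +kernel) c_t6 c_t13
theorem c_t17 : t17.all chk = true :=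
  Tr.all_node_intro chk t15 t16 33349698560 (by decide +kernel) c_t15 c_t16
theorem c_t20 : t20.all chk = true :=
  Tr.all_node_intro chk t18 t19 48582633472 (by decide +kernel) c_t18 c_t19
theorem c_t21 : t21.all chk = true :=
  Tr.all_node_intro chk t17 t20 33551171584 (by decide +kernel) c_t17 c_t20
theorem c_t24 : t24.all chk = true :=
  Tr.all_node_intro chk t22 t23 64688882688 (by decide +kernel) c_t22 c_t23
theorem c_t27 : t27.all chk = true :=
  Tr.all_node_intro chk t25 t26 66837217280 (by decide +kernel) c_t25 c_t26
theorem c_t28 : t28.all chk = true :=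
  Tr.all_node_intro chk t24 t27 66636219392 (by decide +kernel) c_t24 c_t27
theorem c_t29 : t29.all chk = true :=
  Tr.all_node_intro chk t21 t28 50461900800 (by decide +kernel) c_t21 c_t28
theorem c_t30 : t30.all chk = true :=
  Tr.all_node_intro chk t14 t29 32343592960 (by decide +kernel) c_t14 c_t29
theorem c_t33 : t33.all chk = true :=
  Tr.all_node_intro chk t31 t32 67777208320 (by decide +kernel) c_t31 c_t32
theorem c_t36 : t36.all chk = true :=
  Tr.all_node_intro chk t34 t35 118377484288 (by decide +kernel) c_t34 c_t35
theorem c_t37 : t37.all chk = true :=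
  Tr.all_node_intro chk t33 t36 67910144000 (by decide +kernel) c_t33 c_t36
theorem c_t40 : t40.all chk = true :=
  Tr.all_node_intro chk t38 t39 133676861440 (by decide +kernel) c_t38 c_t39
theorem c_t43 : t43.all chk = true :=
  Tr.all_node_intro chk t41 t42 135423201280 (by decide +kernel) c_t41 c_t42
theorem c_t44 : t44.all chk = true :=
  Tr.all_node_intro chk t40 t43 135422346240 (by decide +kernel) c_t40 c_t43
theorem c_t45 : t45.all chk = true :=
  Tr.all_node_intro chk t37 t44 133277943808 (by decide +kernel) c_t37 c_t44
theorem c_t48 : t48.all chk = true :=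
  Tr.all_node_intro chk t46 t47 136499191808 (by decide +kernel) c_t46 c_t47
theorem c_t51 : t51.all chk = true :=
  Tr.all_node_intro chk t49 t50 272995602432 (by decide +kernel) c_t49 c_t50
theorem c_t52 : t52.all chk = true :=
  Tr.all_node_intro chk t48 t51 272860466176 (by decide +kernel) c_t48 c_t51
theorem c_t55 : t55.all chk = true :=
  Tr.all_node_intro chk t53 t54 273935115264 (by decide +kernel) c_t53 c_t54
theorem c_t58 : t58.all chk = true :=
  Tr.all_node_intro chk t56 t57 341983477760 (by decide +kernel) c_t56 c_t57
theorem c_t59 : t59.all chk = true :=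
  Tr.all_node_intro chk t55 t58 274068516864 (by decide +kernel) c_t55 c_t58
theorem c_t60 : t60.all chk = true :=
  Tr.all_node_intro chk t52 t59 272996386816 (by decide +kernel) c_t52 c_t59
theorem c_t61 : t61.all chk = true :=
  Tr.all_node_intro chk t45 t60 135559806976 (by decide +kernel) c_t45 c_t60
theorem c_t62 : t62.all chk = true :=
  Tr.all_node_intro chk t30 t61 67708661760 (by decide +kernel) c_t30 c_t61
theorem c_t65 : t65.all chk = true :=
  Tr.all_node_intro chk t63 t64 410303467520 (by decide +kernel) c_t63 c_t64
theorem c_t68 : t68.all chk = true :=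
  Tr.all_node_intro chk t66 t67 410706214912 (by decide +kernel) c_t66 c_t67
theorem c_t69 : t69.all chk = true :=
  Tr.all_node_intro chk t65 t68 410435127296 (by decide +kernel) c_t65 c_t68
theorem c_t72 : t72.all chk = true :=
  Tr.all_node_intro chk t70 t71 411776802816 (by decide +kernel) c_t70 c_t71
theorem c_t75 : t75.all chk = true :=
  Tr.all_node_intro chk t73 t74 548745787392 (by decide +kernel) c_t73 c_t74
theorem c_t76 : t76.all chk = true :=
  Tr.all_node_intro chk t72 t75 547739998208 (by decide +kernel) c_t72 c_t75
theorem c_t77 : t77.all chk = true :=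
  Tr.all_node_intro chk t69 t76 411374743552 (by decide +kernel) c_t69 c_t76
theorem c_t80 : t80.all chk = true :=
  Tr.all_node_intro chk t78 t79 617667256320 (by decide +kernel) c_t78 c_t79
theorem c_t83 : t83.all chk = true :=
  Tr.all_node_intro chk t81 t82 685313246208 (by decide +kernel) c_t81 c_t82
theorem c_t84 : t84.all chk = true :=
  Tr.all_node_intro chk t80 t83 685312460800 (by decide +kernel) c_t80 c_t83
theorem c_t87 : t87.all chk = true :=
  Tr.all_node_intro chk t85 t86 686385357824 (by decide +kernel) c_t85 c_t86
theorem c_t90 : t90.all chk = true :=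
  Tr.all_node_intro chk t88 t89 822617967616 (by decide +kernel) c_t88 c_t89
theorem c_t91 : t91.all chk = true :=
  Tr.all_node_intro chk t87 t90 822553089024 (by decide +kernel) c_t87 c_t90
theorem c_t92 : t92.all chk = true :=
  Tr.all_node_intro chk t84 t91 686251878400 (by decide +kernel) c_t84 c_t91
theorem c_t93 : t93.all chk = true :=
  Tr.all_node_intro chk t77 t92 549214875648 (by decide +kernel) c_t77 c_t92
theorem c_t96 : t96.all chk = true :=
  Tr.all_node_intro chk t94 t95 823690046464 (by decide +kernel) c_t94 c_t95
theorem c_t99 : t99.all chk = true :=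
  Tr.all_node_intro chk t97 t98 891470939136 (by decide +kernel) c_t97 c_t98
theorem c_t100 : t100.all chk = true :=
  Tr.all_node_intro chk t96 t99 823825688576 (by decide +kernel) c_t96 c_t99
theorem c_t103 : t103.all chk = true :=
  Tr.all_node_intro chk t101 t102 960056134656 (by decide +kernel) c_t101 c_t102
theorem c_t106 : t106.all chk = true :=
  Tr.all_node_intro chk t104 t105 960459409408 (by decide +kernel) c_t104 c_t105
theorem c_t107 : t107.all chk = true :=
  Tr.all_node_intro chk t103 t106 960193449984 (by decide +kernel) c_t103 c_t106
theorem c_t108 : t108.all chk = true :=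
  Tr.all_node_intro chk t100 t107 892411126784 (by decide +kernel) c_t100 c_t107
theorem c_t111 : t111.all chk = true :=
  Tr.all_node_intro chk t109 t110 961264642048 (by decide +kernel) c_t109 c_t110
theorem c_t114 : t114.all chk = true :=
  Tr.all_node_intro chk t112 t113 1097629800448 (by decide +kernel) c_t112 c_t113
theorem c_t115 : t115.all chk = true :=
  Tr.all_node_intro chk t111 t114 961531847680 (by decide +kernel) c_t111 c_t114
theorem c_t118 : t118.all chk = true :=
  Tr.all_node_intro chk t116 t117 1716910014464 (by decide +kernel) c_t116 c_t117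
theorem c_t121 : t121.all chk = true :=
  Tr.all_node_intro chk t119 t120 1785093374976 (by decide +kernel) c_t119 c_t120
theorem c_t122 : t122.all chk = true :=
  Tr.all_node_intro chk t118 t121 1784827250688 (by decide +kernel) c_t118 c_t121
theorem c_t123 : t123.all chk = true :=
  Tr.all_node_intro chk t115 t122 1098568775680 (by decide +kernel) c_t115 c_t122
theorem c_t124 : t124.all chk = true :=
  Tr.all_node_intro chk t108 t123 961132931072 (by decide +kernel) c_t108 c_t123
theorem c_t125 : t125.all chk = true :=
  Tr.all_node_intro chk t93 t124 823019882496 (by decide +kernel) c_t93 c_t124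
theorem c_t126 : t126.all chk = true :=
  Tr.all_node_intro chk t62 t125 342789398528 (by decide +kernel) c_t62 c_t125
theorem c_t129 : t129.all chk = true :=
  Tr.all_node_intro chk t127 t128 1785898641408 (by decide +kernel) c_t127 c_t128
theorem c_t132 : t132.all chk = true :=
  Tr.all_node_intro chk t130 t131 1922263618560 (by decide +kernel) c_t130 c_t131
theorem c_t133 : t133.all chk = true :=
  Tr.all_node_intro chk t129 t132 1922131957760 (by decide +kernel) c_t129 c_t132
theorem c_t136 : t136.all chk = true :=
  Tr.all_node_intro chk t134 t135 1923203250176 (by decide +kernel) c_t134 c_t135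
theorem c_t139 : t139.all chk = true :=
  Tr.all_node_intro chk t137 t138 1992056218624 (by decide +kernel) c_t137 c_t138
theorem c_t140 : t140.all chk = true :=
  Tr.all_node_intro chk t136 t139 1923605721088 (by decide +kernel) c_t136 c_t139
theorem c_t141 : t141.all chk = true :=
  Tr.all_node_intro chk t133 t140 1922534707200 (by decide +kernel) c_t133 c_t140
theorem c_t144 : t144.all chk = true :=
  Tr.all_node_intro chk t142 t143 2059969612800 (by decide +kernel) c_t142 c_t143
theorem c_t147 : t147.all chk = true :=
  Tr.all_node_intro chk t145 t146 2060778940416 (by decide +kernel) c_t145 c_t146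
theorem c_t148 : t148.all chk = true :=
  Tr.all_node_intro chk t144 t147 2060641940480 (by decide +kernel) c_t144 c_t147
theorem c_t151 : t151.all chk = true :=
  Tr.all_node_intro chk t149 t150 2198079585280 (by decide +kernel) c_t149 c_t150
theorem c_t154 : t154.all chk = true :=
  Tr.all_node_intro chk t152 t153 3984924255232 (by decide +kernel) c_t152 c_t153
theorem c_t155 : t155.all chk = true :=
  Tr.all_node_intro chk t151 t154 3917007544320 (by decide +kernel) c_t151 c_t154
theorem c_t156 : t156.all chk = true :=
  Tr.all_node_intro chk t148 t155 2197007178752 (by decide +kernel) c_t148 c_t155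
theorem c_t157 : t157.all chk = true :=
  Tr.all_node_intro chk t141 t156 2059701898240 (by decide +kernel) c_t141 c_t156
theorem c_t160 : t160.all chk = true :=
  Tr.all_node_intro chk t158 t159 4121555342336 (by decide +kernel) c_t158 c_t159
theorem c_t163 : t163.all chk = true :=
  Tr.all_node_intro chk t161 t162 4190811964416 (by decide +kernel) c_t161 c_t162
theorem c_t164 : t164.all chk = true :=
  Tr.all_node_intro chk t160 t163 4122360510464 (by decide +kernel) c_t160 c_t163
theorem c_t167 : t167.all chk = true :=
  Tr.all_node_intro chk t165 t166 4259798952960 (by decide +kernel) c_t165 c_t166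
theorem c_t170 : t170.all chk = true :=
  Tr.all_node_intro chk t168 t169 4397103725568 (by decide +kernel) c_t168 c_t169
theorem c_t171 : t171.all chk = true :=
  Tr.all_node_intro chk t167 t170 4260066685952 (by decide +kernel) c_t167 c_t170
theorem c_t172 : t172.all chk = true :=
  Tr.all_node_intro chk t164 t171 4258993722368 (by decide +kernel) c_t164 c_t171
theorem c_t175 : t175.all chk = true :=
  Tr.all_node_intro chk t173 t174 8383239152640 (by decide +kernel) c_t173 c_t174
theorem c_t178 : t178.all chk = true :=
  Tr.all_node_intro chk t176 t177 8520675866624 (by decide +kernel) c_t176 c_t177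
theorem c_t179 : t179.all chk = true :=
  Tr.all_node_intro chk t175 t178 8520409609216 (by decide +kernel) c_t175 c_t178
theorem c_t182 : t182.all chk = true :=
  Tr.all_node_intro chk t180 t181 8794479188992 (by decide +kernel) c_t180 c_t181
theorem c_t185 : t185.all chk = true :=
  Tr.all_node_intro chk t183 t184 17454210083840 (by decide +kernel) c_t183 c_t184
theorem c_t186 : t186.all chk = true :=
  Tr.all_node_intro chk t182 t185 8795552152576 (by decide +kernel) c_t182 c_t185
theorem c_t187 : t187.all chk = true :=
  Tr.all_node_intro chk t179 t186 8657848708096 (by decide +kernel) c_t179 c_t186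
theorem c_t188 : t188.all chk = true :=
  Tr.all_node_intro chk t172 t187 6459627661312 (by decide +kernel) c_t172 c_t187
theorem c_t189 : t189.all chk = true :=
  Tr.all_node_intro chk t157 t188 3985190350848 (by decide +kernel) c_t157 c_t188
theorem c_t192 : t192.all chk = true :=
  Tr.all_node_intro chk t190 t191 914793674308624 (by decide +kernel) c_t190 c_t191
theorem c_t195 : t195.all chk = true :=
  Tr.all_node_intro chk t193 t194 3799912185592904 (by decide +kernel) c_t193 c_t194
theorem c_t196 : t196.all chk = true :=
  Tr.all_node_intro chk t192 t195 2005509209062416 (by decide +kernel) c_t192 c_t195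
theorem c_t199 : t199.all chk = true :=
  Tr.all_node_intro chk t197 t198 8022036836252864 (by decide +kernel) c_t197 c_t198
theorem c_t202 : t202.all chk = true :=
  Tr.all_node_intro chk t200 t201 8796093022207792 (by decide +kernel) c_t200 c_t201
theorem c_t203 : t203.all chk = true :=
  Tr.all_node_intro chk t199 t202 8514618045496360 (by decide +kernel) c_t199 c_t202
theorem c_t204 : t204.all chk = true :=
  Tr.all_node_intro chk t196 t203 4257309022748420 (by decide +kernel) c_t196 c_t203
theorem c_t207 : t207.all chk = true :=
  Tr.all_node_intro chk t205 t206 17205157951437836 (by decide +kernel) c_t205 c_t206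
theorem c_t210 : t210.all chk = true :=
  Tr.all_node_intro chk t208 t209 17803292276948049 (by decide +kernel) c_t208 c_t209
theorem c_t211 : t211.all chk = true :=
  Tr.all_node_intro chk t207 t210 17592186044415032 (by decide +kernel) c_t207 c_t210
theorem c_t214 : t214.all chk = true :=
  Tr.all_node_intro chk t212 t213 35043634600475796 (by decide +kernel) c_t212 c_t213
theorem c_t217 : t217.all chk = true :=
  Tr.all_node_intro chk t215 t216 35764914228297482 (by decide +kernel) c_t215 c_t216
theorem c_t218 : t218.all chk = true :=
  Tr.all_node_intro chk t214 t217 35536215809719322 (by decide +kernel) c_t214 c_t217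
theorem c_t219 : t219.all chk = true :=
  Tr.all_node_intro chk t211 t218 31102984926526625 (by decide +kernel) c_t211 c_t218
theorem c_t220 : t220.all chk = true :=
  Tr.all_node_intro chk t204 t219 13018217672866946 (by decide +kernel) c_t204 c_t219
theorem c_t223 : t223.all chk = true :=
  Tr.all_node_intro chk t221 t222 71793711247260686 (by decide +kernel) c_t221 c_t222
theorem c_t226 : t226.all chk = true :=
  Tr.all_node_intro chk t224 t225 107875284824357993 (by decide +kernel) c_t224 c_t225
theorem c_t227 : t227.all chk = true :=
  Tr.all_node_intro chk t223 t226 107558625475558531 (by decide +kernel) c_t223 c_t226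
theorem c_t230 : t230.all chk = true :=
  Tr.all_node_intro chk t228 t229 179897694490197785 (by decide +kernel) c_t228 c_t229
theorem c_t233 : t233.all chk = true :=
  Tr.all_node_intro chk t231 t232 216032044625427644 (by decide +kernel) c_t231 c_t232
theorem c_t234 : t234.all chk = true :=
  Tr.all_node_intro chk t230 t233 215750569648717682 (by decide +kernel) c_t230 c_t233
theorem c_t235 : t235.all chk = true :=
  Tr.all_node_intro chk t227 t234 143692975610789812 (by decide +kernel) c_t227 c_t234
theorem c_t238 : t238.all chk = true :=
  Tr.all_node_intro chk t236 t237 287808163686644949 (by decide +kernel) c_t236 c_t237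
theorem c_t241 : t241.all chk = true :=
  Tr.all_node_intro chk t239 t240 504192052032961595 (by decide +kernel) c_t239 c_t240
theorem c_t242 : t242.all chk = true :=
  Tr.all_node_intro chk t238 t241 468163255013998537 (by decide +kernel) c_t238 c_t241
theorem c_t245 : t245.all chk = true :=
  Tr.all_node_intro chk t243 t244 576320014815067326 (by decide +kernel) c_t243 c_t244
theorem c_t248 : t248.all chk = true :=
  Tr.all_node_intro chk t246 t247 2233644677687410621 (by decide +kernel) c_t246 c_t247
theorem c_t249 : t249.all chk = true :=
  Tr.all_node_intro chk t245 t248 1116751970099526779 (by decide +kernel) c_t245 c_t248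
theorem c_t250 : t250.all chk = true :=
  Tr.all_node_intro chk t242 t249 540220849051925659 (by decide +kernel) c_t242 c_t249
theorem c_t251 : t251.all chk = true :=
  Tr.all_node_intro chk t235 t250 251990472900214634 (by decide +kernel) c_t235 c_t250
theorem c_t252 : t252.all chk = true :=
  Tr.all_node_intro chk t220 t251 71529828456594502 (by decide +kernel) c_t220 c_t251
theorem c_t253 : t253.all chk = true :=
  Tr.all_node_intro chk t189 t252 17591646682112 (by decide +kernel) c_t189 c_t252
theorem c_t254 : t254.all chk = true :=
  Tr.all_node_intro chk t126 t253 1785897854976 (by decide +kernel) c_t126 c_t253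

theorem chk_all : tree.all (stepOK tree.mem tab pb 63) = true := c_t254

theorem full_mem : tree.mem (2 ^ 63 - 1) = true := by decide +kernel

theorem mono_chk : monoOK wtP 63 = true := by decide +kernel

theorem tab_chk : tabOK wtP cap 63 tab = true := by decide +kernel

theorem pb_chk : pbOK wtP cap 63 pb = true := by decide +kernel

theorem eq_chk : eqOK wtP (fun i => wts.getD i 0) 63 = true := by decide +kernel

/-- The weights are the entries of the list `wts`. -/
theorem wtP_eq : ∀ i < 63, wtP i = wts.getD i 0 := eq_of_check _ _ _ eq_chk

/-- The list of weights is sorted on its first 63 entries. -/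
theorem wtP_mono : ∀ i j, i ≤ j → j < 63 → wtP i ≤ wtP j := mono_of_check wtP 63 mono_chk

/-- The 63 lightest items cannot be split into triples of weight at most `cap`. -/
theorem not_pk : ¬ Pk (fun i => wts.getD i 0) cap (Finset.range 63) := by
  intro h
  have h' : Pk wtP cap (Finset.range 63) :=
    h.congr (fun i hi => (wtP_eq i (Finset.mem_range.mp hi)).symm)
  exact not_pk_range wtP cap 63 tab pb tree wtP_mono
    (tab_of_check _ _ _ _ wtP_mono tab_chk) (pb_of_check _ _ _ _ wtP_mono pb_chk)
    chk_all full_mem h'

/-- No family of pairwise disjoint triples of weight at most `cap` has union equal to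
the set of the 63 lightest items. -/
theorem not_packable (P : Finset (Finset ℕ))
    (h3 : ∀ T ∈ P, T.card = 3 ∧ ∑ i ∈ T, wts.getD i 0 ≤ cap)
    (hd : ∀ T ∈ P, ∀ T' ∈ P, T ≠ T' → Disjoint T T')
    (hU : P.biUnion id = Finset.range 63) : False := by
  have := pk_of_family (fun i => wts.getD i 0) cap P h3 hd
  rw [hU] at this
  exact not_pk this

end Vale.Agent.Lib.Helper7.P302.I65
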